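import Crest.Agent.X212.Slc61.Top

/-! The slice theorem for a group acting on a Banach space (format free). -/

set_option autoImplicit false

noncomputable section

open Set Filter Topology

namespace Crest.Agent.X212.Slc61

/-- Every gauge equivalence between points near `x₀` is realised by `e ξ` with small `ξ`
(freeness up to elements acting trivially + properness + logarithm chart at `1`). -/
def Tame {G : Type*} [Group G] {C : Type*} [TopologicalSpace C] [MulAction G C]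
    {L : Type*} [TopologicalSpace L] [Zero L] (e : L → G) (x₀ : C) : Prop :=
  ∀ U ∈ 𝓝 (0 : L), ∃ V ∈ 𝓝 x₀, ∀ x ∈ V, ∀ g : G, g • x ∈ V → ∃ ξ ∈ U, e ξ • x = g • x

section tame

variable {G : Type*} [Group G] {C : Type*} [TopologicalSpace C] [MulAction G C]
  {L : Type*} [TopologicalSpace L] [Zero L]

/-- Sequential criterion, no topology on the group. -/
theorem tame_of_seq [FirstCountableTopology C] {e : L → G} {x₀ : C}
    (h : ∀ (x : ℕ → C) (g : ℕ → G), Tendsto x atTop (𝓝 x₀) →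
      Tendsto (fun n => g n • x n) atTop (𝓝 x₀) → ∃ (φ : ℕ → ℕ) (ξ : ℕ → L),
        Tendsto ξ atTop (𝓝 0) ∧ ∀ᶠ n in atTop, e (ξ n) • x (φ n) = g (φ n) • x (φ n)) :
    Tame e x₀ := by
  intro U hU
  by_contra hcon
  push Not at hcon
  obtain ⟨B, hB⟩ := (𝓝 x₀).exists_antitone_basis
  choose x hx g hg hne using fun n => hcon (B n) (hB.mem n)
  obtain ⟨φ, ξ, hξ, he⟩ := h x g (hB.tendsto hx) (hB.tendsto hg)
  obtain ⟨n, h1, h2⟩ := ((hξ.eventually hU).and he).exists
  exact hne (φ n) (ξ n) h1 h2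

/-- Criterion for a topological group: properness at `x₀`, a stabiliser acting trivially and a
chart `e` that is onto a neighbourhood of `1`. -/
theorem tame_of_proper [FirstCountableTopology C] [T2Space C] [TopologicalSpace G]
    [ContinuousMul G] [ContinuousSMul G C] {e : L → G} {x₀ : C}
    (hp : ∀ (x : ℕ → C) (g : ℕ → G), Tendsto x atTop (𝓝 x₀) →
      Tendsto (fun n => g n • x n) atTop (𝓝 x₀) →
      ∃ (φ : ℕ → ℕ) (k : G), StrictMono φ ∧ Tendsto (g ∘ φ) atTop (𝓝 k))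
    (hs : ∀ k : G, k • x₀ = x₀ → ∀ x : C, k • x = x)
    (hl : ∀ U ∈ 𝓝 (0 : L), e '' U ∈ 𝓝 (1 : G)) : Tame e x₀ := by
  intro U hU
  by_contra hcon
  push Not at hcon
  obtain ⟨B, hB⟩ := (𝓝 x₀).exists_antitone_basis
  choose x hx g hg hne using fun n => hcon (B n) (hB.mem n)
  obtain ⟨φ, k, hφ, hk⟩ := hp x g (hB.tendsto hx) (hB.tendsto hg)
  have h1 : Tendsto (fun n => g (φ n) • x (φ n)) atTop (𝓝 (k • x₀)) :=
    hk.smul ((hB.tendsto hx).comp hφ.tendsto_atTop)
  have h2 : k • x₀ = x₀ := tendsto_nhds_unique h1 ((hB.tendsto hg).comp hφ.tendsto_atTop)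
  have h3 : Tendsto (fun n => g (φ n) * k⁻¹) atTop (𝓝 1) := by
    simpa using hk.mul_const k⁻¹
  obtain ⟨n, ξ, hξ, he⟩ := (h3.eventually (hl U hU)).exists
  refine hne (φ n) ξ hξ ?_
  have h4 : k⁻¹ • x (φ n) = x (φ n) := by
    rw [inv_smul_eq_iff, hs k h2]
  rw [he, mul_smul, h4]

/-- Properness gives closed orbit relation. -/
theorem closedOrb_of_proper [T2Space C] [TopologicalSpace G] [ContinuousSMul G C] {Z : Set C}
    (hp : ∀ (x : ℕ → C) (g : ℕ → G) (a b : C), (∀ n, x n ∈ Z) → a ∈ Z → b ∈ Z →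
      Tendsto x atTop (𝓝 a) → Tendsto (fun n => g n • x n) atTop (𝓝 b) →
      ∃ (φ : ℕ → ℕ) (k : G), StrictMono φ ∧ Tendsto (g ∘ φ) atTop (𝓝 k)) : ClosedOrb G Z := by
  intro x g a b hx ha hb h1 h2
  obtain ⟨φ, k, hφ, hk⟩ := hp x g a b hx ha hb h1 h2
  exact ⟨k, tendsto_nhds_unique (hk.smul (h1.comp hφ.tendsto_atTop)) (h2.comp hφ.tendsto_atTop)⟩

end tame

/-- Analytic slice data at `x₀`: chart `e` of the group at `1` with infinitesimal action `d`,
gauge fixing `γ` with derivative `σ`, `σ ∘ d` bijective. -/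
structure SliceData (G : Type*) [Group G] {C : Type*} [NormedAddCommGroup C] [NormedSpace ℝ C]
    [MulAction G C] (L H : Type*) [NormedAddCommGroup L] [NormedSpace ℝ L]
    [NormedAddCommGroup H] [NormedSpace ℝ H] (x₀ : C) where
  e : L → G
  d : L →L[ℝ] C
  γ : C → H
  σ : C →L[ℝ] H
  e_zero : e 0 = 1
  act : HasStrictFDerivAt (fun q : L × C => e q.1 • q.2)
    (d.coprod (ContinuousLinearMap.id ℝ C)) (0, x₀)
  gf : HasStrictFDerivAt γ σ x₀
  gf0 : γ x₀ = 0
  bij : Function.Bijective (σ.comp d)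
  tame : Tame e x₀

variable {G : Type*} [Group G] {C : Type*} [NormedAddCommGroup C] [NormedSpace ℝ C]
  [MulAction G C] {L H : Type*} [NormedAddCommGroup L] [NormedSpace ℝ L]
  [NormedAddCommGroup H] [NormedSpace ℝ H] {x₀ : C}

namespace SliceData

variable (D : SliceData G L H x₀)

/-- The slice. -/
def S : Set C := {x | D.γ x = 0}

theorem mem_S : x₀ ∈ D.S := D.gf0

/-- The derivative of `(ξ, x) ↦ (γ (e ξ • x), x)`. -/
def th' : L × C →L[ℝ] H × C :=
  (D.σ.comp (D.d.coprod (ContinuousLinearMap.id ℝ C))).prod (ContinuousLinearMap.snd ℝ L C)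

theorem th'_bij : Function.Bijective D.th' := by
  constructor
  · rw [injective_iff_map_eq_zero]
    rintro ⟨ξ, v⟩ h
    simp only [th', ContinuousLinearMap.prod_apply, ContinuousLinearMap.comp_apply,
      ContinuousLinearMap.coprod_apply, ContinuousLinearMap.id_apply,
      ContinuousLinearMap.coe_snd', Prod.mk_eq_zero] at h
    obtain ⟨h1, rfl⟩ := h
    have : ξ = 0 := D.bij.1 (by simpa using h1)
    simp [this]
  · rintro ⟨w, v⟩
    obtain ⟨ξ, hξ⟩ := D.bij.2 (w - D.σ v)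
    refine ⟨(ξ, v), ?_⟩
    simp only [ContinuousLinearMap.comp_apply] at hξ
    simp [th', hξ]

theorem hasStrict_th : HasStrictFDerivAt (fun q : L × C => (D.γ (D.e q.1 • q.2), q.2)) D.th'
    (0, x₀) := by
  have h : HasStrictFDerivAt D.γ D.σ (D.e ((0, x₀) : L × C).1 • ((0, x₀) : L × C).2) := by
    simpa [D.e_zero] using D.gf
  exact (h.comp (0, x₀) D.act).prodMk hasStrictFDerivAt_snd

/-- **Slice theorem.** -/
theorem exists_tslice [CompleteSpace C] [CompleteSpace L] [CompleteSpace H] :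
    Nonempty (TSlice G D.S x₀) := by
  let A : (L × C) ≃L[ℝ] (H × C) := ContinuousLinearEquiv.ofBijective D.th'
    (LinearMap.ker_eq_bot.2 D.th'_bij.1) (LinearMap.range_eq_top.2 D.th'_bij.2)
  have hA : HasStrictFDerivAt (fun q : L × C => (D.γ (D.e q.1 • q.2), q.2))
      (A : L × C →L[ℝ] H × C) (0, x₀) := D.hasStrict_th
  set P := hA.toOpenPartialHomeomorph _ with hP
  have hPa : ∀ q : L × C, P q = (D.γ (D.e q.1 • q.2), q.2) := fun q => rfl
  have h0 : ((0, x₀) : L × C) ∈ P.source := hA.mem_toOpenPartialHomeomorph_source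
  obtain ⟨K, N, hN, hK⟩ := D.act.exists_lipschitzOnWith
  obtain ⟨N', hN'N, hN'o, hN'0⟩ := mem_nhds_iff.1 hN
  have hc : ContinuousOn (fun q : L × C => D.e q.1 • q.2) N' := hK.continuousOn.mono hN'N
  obtain ⟨U, hU, W, hW, hUW⟩ := mem_nhds_prod_iff.1 (P.open_source.mem_nhds h0)
  obtain ⟨V1, hV1, hV⟩ := D.tame U hU
  have hP0 : ∀ x, D.γ x = 0 → P (0, x) = (0, x) := fun x hx => by
    rw [hPa]; simp [D.e_zero, hx]
  have hcs : ContinuousOn (fun x : C => P.symm (0, x)) {x | ((0, x) : H × C) ∈ P.target} :=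
    P.continuousOn_symm.comp (by fun_prop) fun x hx => hx
  have ho1 : IsOpen {x : C | ((0, x) : H × C) ∈ P.target} :=
    P.open_target.preimage (by fun_prop)
  have ho2 : IsOpen ({x : C | ((0, x) : H × C) ∈ P.target} ∩
      (fun x : C => P.symm (0, x)) ⁻¹' N') := hcs.isOpen_inter_preimage ho1 hN'o
  have hs0 : ∀ x ∈ W, D.γ x = 0 → P.symm (0, x) = (0, x) := fun x hx hγ => by
    have := P.left_inv (hUW (mk_mem_prod (mem_of_mem_nhds hU) hx))
    rwa [hP0 x hγ] at this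
  have h2 : ∀ x, ((0, x) : H × C) ∈ P.target → (P.symm (0, x)).2 = x ∧
      D.γ (D.e (P.symm (0, x)).1 • (P.symm (0, x)).2) = 0 := fun x hx => by
    have := P.right_inv hx
    rw [hPa] at this
    exact ⟨congrArg Prod.snd this, congrArg Prod.fst this⟩
  refine ⟨⟨interior (V1 ∩ W) ∩ ({x : C | ((0, x) : H × C) ∈ P.target} ∩
      (fun x : C => P.symm (0, x)) ⁻¹' N'),
    fun x => D.e (P.symm (0, x)).1 • (P.symm (0, x)).2, isOpen_interior.inter ho2, ?_, ?_, ?_,
    ?_, ?_, ?_⟩⟩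
  · refine ⟨mem_interior_iff_mem_nhds.2 (inter_mem hV1 hW), ?_, ?_⟩
    · have := P.map_source h0
      rwa [hP0 x₀ D.gf0] at this
    · show P.symm (0, x₀) ∈ N'
      rw [hs0 x₀ (mem_of_mem_nhds hW) D.gf0]
      exact hN'0
  · exact hc.comp (hcs.mono fun x hx => hx.2.1) fun x hx => hx.2.2
  · exact fun x hx => (h2 x hx.2.1).2
  · exact fun x hx => ⟨D.e (P.symm (0, x)).1, by rw [(h2 x hx.2.1).1]⟩
  · intro x hx hS
    show D.e (P.symm (0, x)).1 • (P.symm (0, x)).2 = x
    rw [hs0 x (interior_subset hx.1).2 hS]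
    simp [D.e_zero]
  · intro x hx hS g hg hgS
    obtain ⟨ξ, hξ, he⟩ := hV x (interior_subset hx.1).1 g (interior_subset hg.1).1
    have hxW := (interior_subset hx.1).2
    have h3 : P (ξ, x) = P (0, x) := by
      rw [hP0 x hS, hPa]
      simp only [he]
      exact Prod.ext hgS rfl
    have h4 := P.injOn (hUW (mk_mem_prod hξ hxW)) (hUW (mk_mem_prod (mem_of_mem_nhds hU) hxW)) h3
    have h5 : ξ = 0 := (Prod.ext_iff.1 h4).1
    rw [← he, h5]
    simp [D.e_zero]

/-- A map vanishing along the orbit kills the infinitesimal action. -/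
theorem comp_d_eq_zero {E : Type*} [NormedAddCommGroup E] [NormedSpace ℝ E] {F : C → E}
    {F' : C →L[ℝ] E} (hF : HasFDerivAt F F' x₀)
    (h : ∀ᶠ ξ in 𝓝 (0 : L), F (D.e ξ • x₀) = F x₀) : F'.comp D.d = 0 := by
  have h1 : HasFDerivAt (fun ξ : L => D.e ξ • x₀) D.d 0 := by
    have h2 : HasFDerivAt (fun ξ : L => ((ξ, x₀) : L × C)) (ContinuousLinearMap.inl ℝ L C) 0 :=
      hasFDerivAt_prodMk_left 0 x₀
    have h3 := D.act.hasFDerivAt.comp (0 : L) h2
    have h7 : (D.d.coprod (ContinuousLinearMap.id ℝ C)).comp (ContinuousLinearMap.inl ℝ L C)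
        = D.d := by
      ext ξ
      simp
    rw [← h7]
    exact h3
  have h4 : HasFDerivAt F F' (D.e 0 • x₀) := by simpa [D.e_zero] using hF
  have h5 := h4.comp (0 : L) h1
  have h6 : HasFDerivAt (F ∘ fun ξ : L => D.e ξ • x₀) (0 : L →L[ℝ] E) 0 :=
    (hasFDerivAt_const (F x₀) (0 : L)).congr_of_eventuallyEq h
  exact h5.unique h6

theorem tendsto_orbit : Tendsto (fun ξ : L => D.e ξ • x₀) (𝓝 0) (𝓝 x₀) := by
  have h := D.act.continuousAt.tendsto
  simp only [D.e_zero, one_smul] at h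
  exact h.comp (Continuous.tendsto' (by fun_prop : Continuous fun ξ : L => ((ξ, x₀) : L × C)) _ _
    rfl)

/-- If `Z` is invariant and is locally the zero set of `F`, then `F' ∘ d = 0`. -/
theorem comp_d_of_zero {E : Type*} [NormedAddCommGroup E] [NormedSpace ℝ E] {F : C → E}
    {F' : C →L[ℝ] E} (hF : HasFDerivAt F F' x₀) {Z : Set C} (hZ : Inv G Z) (h0 : x₀ ∈ Z)
    (h : ∀ᶠ x in 𝓝 x₀, x ∈ Z ↔ F x = 0) : F'.comp D.d = 0 := by
  apply D.comp_d_eq_zero hF
  filter_upwards [D.tendsto_orbit.eventually h] with ξ hξ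
  rw [hξ.1 (hZ _ _ h0), h.self_of_nhds.1 h0]

end SliceData

/-- `F'` is onto iff the gauge-fixed operator `(F', σ)` is onto. -/
theorem surj_prod_iff {E : Type*} [NormedAddCommGroup E] [NormedSpace ℝ E] {F' : C →L[ℝ] E}
    {d : L →L[ℝ] C} {σ : C →L[ℝ] H} (h0 : F'.comp d = 0) (hs : Function.Surjective (σ.comp d)) :
    Function.Surjective (F'.prod σ) ↔ Function.Surjective F' := by
  constructor
  · intro h y
    obtain ⟨v, hv⟩ := h (y, 0)
    exact ⟨v, congrArg Prod.fst hv⟩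
  · rintro h ⟨y, w⟩
    obtain ⟨v, rfl⟩ := h y
    obtain ⟨ξ, hξ⟩ := hs (w - σ v)
    refine ⟨v + d ξ, ?_⟩
    have : F' (d ξ) = 0 := by simpa using congrArg (fun T : L →L[ℝ] E => T ξ) h0
    simp only [ContinuousLinearMap.comp_apply] at hξ
    simp [this, hξ]

end Crest.Agent.X212.Slc61
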