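import Crest.Agent.X212.Slc61.Slice
import Crest.Agent.X212.Par72.Reg

/-! Charts of the moduli space `Mod G Z` at regular points. -/

set_option autoImplicit false
set_option linter.unusedSectionVars false

noncomputable section

open Set Filter Topology Function

namespace Crest.Agent.X212.Slc61

variable {G : Type*} [Group G] {C : Type*} [NormedAddCommGroup C] [NormedSpace ℝ C]
  [CompleteSpace C] [MulAction G C] [ContinuousConstSMul G C]
  {L H E R : Type*} [NormedAddCommGroup L] [NormedSpace ℝ L] [CompleteSpace L]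
  [NormedAddCommGroup H] [NormedSpace ℝ H] [CompleteSpace H]
  [NormedAddCommGroup E] [NormedSpace ℝ E] [CompleteSpace E]
  [NormedAddCommGroup R] [NormedSpace ℝ R] [CompleteSpace R] {x₀ : C}

namespace SliceData

variable (D : SliceData G L H x₀)

/-- **Chart of the moduli space.** If `(F', σ, τ')` is bijective, `τ` restricted to the slice is a
chart of `Mod G Z` at the class of `x₀`. -/
theorem chart {Z : Set C} (hZ : Inv G Z) (h0 : x₀ ∈ Z) {F : C → E} {F' : C →L[ℝ] E}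
    (hF : HasStrictFDerivAt F F' x₀) (hl : ∀ᶠ y in 𝓝 x₀, y ∈ Z ↔ F y = 0)
    {τ : C → R} {τ' : C →L[ℝ] R} (hτ : HasStrictFDerivAt τ τ' x₀)
    (hb : Bijective ((F'.prod D.σ).prod τ')) :
    ∃ e : OpenPartialHomeomorph (Mod G Z) R, cls G ⟨x₀, h0⟩ ∈ e.source ∧
      ∀ m ∈ e.source, ∃ y : Z, cls G y = m ∧ D.γ y = 0 ∧ e m = τ y := by
  obtain ⟨T⟩ := D.exists_tslice
  have hx : x₀ ∈ Z ∩ (D.S ∩ T.V) := ⟨h0, D.mem_S, T.mem⟩
  have hS : ∀ᶠ y in 𝓝 x₀, y ∈ Z ∩ (D.S ∩ T.V) ↔ (F y, D.γ y) = 0 := by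
    filter_upwards [hl, T.isOpen.mem_nhds T.mem] with y h1 h2
    simp only [mem_inter_iff, h1, h2, and_true, Prod.mk_eq_zero]
    rfl
  obtain ⟨e, he, he'⟩ := Par72.chart_of_bij (hF.prodMk D.gf) hτ hb hx hS
  have : Nonempty ↥(Z ∩ (D.S ∩ T.V)) := ⟨⟨x₀, hx⟩⟩
  have hj := T.isOpenEmbedding hZ
  let J := hj.toOpenPartialHomeomorph _
  have hJ : ∀ y : ↥(Z ∩ (D.S ∩ T.V)), J.symm (cls G ⟨y, y.2.1⟩) = y := fun y =>
    J.left_inv (x := y) (mem_univ _)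
  refine ⟨J.symm.trans e, ⟨J.map_source (x := ⟨x₀, hx⟩) (mem_univ _), ?_⟩, ?_⟩
  · show J.symm _ ∈ e.source
    rw [hJ ⟨x₀, hx⟩]
    exact he
  · intro m hm
    refine ⟨⟨J.symm m, (J.symm m).2.1⟩, J.right_inv hm.1, (J.symm m).2.2.1, he' _⟩

/-- Invariant coordinates descend to charts. -/
theorem chart_lift {Z : Set C} (hZ : Inv G Z) (h0 : x₀ ∈ Z) {F : C → E} {F' : C →L[ℝ] E}
    (hF : HasStrictFDerivAt F F' x₀) (hl : ∀ᶠ y in 𝓝 x₀, y ∈ Z ↔ F y = 0)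
    {τ : C → R} {τ' : C →L[ℝ] R} (hτ : HasStrictFDerivAt τ τ' x₀)
    (hi : ∀ (g : G), ∀ x ∈ Z, τ (g • x) = τ x)
    (hb : Bijective ((F'.prod D.σ).prod τ')) :
    ∃ e : OpenPartialHomeomorph (Mod G Z) R, cls G ⟨x₀, h0⟩ ∈ e.source ∧
      ∀ m ∈ e.source, e m = lift τ hi m := by
  obtain ⟨e, h1, h2⟩ := D.chart hZ h0 hF hl hτ hb
  refine ⟨e, h1, fun m hm => ?_⟩
  obtain ⟨y, rfl, -, h⟩ := h2 m hm
  rw [h, lift_mk]

theorem surj_gf {Z : Set C} (hZ : Inv G Z) (h0 : x₀ ∈ Z) {F : C → E} {F' : C →L[ℝ] E}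
    (hF : HasFDerivAt F F' x₀) (hl : ∀ᶠ y in 𝓝 x₀, y ∈ Z ↔ F y = 0) (hs : Surjective F') :
    Surjective (F'.prod D.σ) :=
  (surj_prod_iff (D.comp_d_of_zero hF hZ h0 hl) D.bij.2).2 hs

/-- Regular point with finite-dimensional gauge-fixed kernel: chart onto the kernel. -/
theorem chart_ker {Z : Set C} (hZ : Inv G Z) (h0 : x₀ ∈ Z) {F : C → E} {F' : C →L[ℝ] E}
    (hF : HasStrictFDerivAt F F' x₀) (hl : ∀ᶠ y in 𝓝 x₀, y ∈ Z ↔ F y = 0) (hs : Surjective F')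
    [FiniteDimensional ℝ (F'.prod D.σ).ker] :
    ∃ e : OpenPartialHomeomorph (Mod G Z) (F'.prod D.σ).ker, cls G ⟨x₀, h0⟩ ∈ e.source := by
  obtain ⟨π, hπ⟩ := Submodule.ClosedComplemented.of_finiteDimensional (F'.prod D.σ).ker
  have : CompleteSpace (F'.prod D.σ).ker := FiniteDimensional.complete ℝ _
  have hs' := D.surj_gf hZ h0 hF.hasFDerivAt hl hs
  have hb : Bijective ((F'.prod D.σ).prod π) := by
    constructor
    · rw [injective_iff_map_eq_zero]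
      intro v hv
      have h1 : v ∈ (F'.prod D.σ).ker := congrArg Prod.fst hv
      have h2 : π v = 0 := congrArg Prod.snd hv
      have := hπ ⟨v, h1⟩
      rw [show π (⟨v, h1⟩ : (F'.prod D.σ).ker) = 0 from h2] at this
      exact (congrArg Subtype.val this).symm
    · rintro ⟨f, k⟩
      obtain ⟨v, rfl⟩ := hs' f
      refine ⟨v + (k - π v : (F'.prod D.σ).ker), ?_⟩
      have h1 : (F'.prod D.σ) (k - π v : (F'.prod D.σ).ker) = 0 := (k - π v).2
      rw [ContinuousLinearMap.prod_apply, map_add, h1, add_zero, map_add, hπ, add_sub_cancel]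
  obtain ⟨e, h, -⟩ := D.chart hZ h0 hF hl π.hasStrictFDerivAt hb
  exact ⟨e, h⟩

/-- Regular point of index `n`: a chart with values in `ℝⁿ`. -/
theorem chart_fin {Z : Set C} (hZ : Inv G Z) (h0 : x₀ ∈ Z) {F : C → E} {F' : C →L[ℝ] E}
    (hF : HasStrictFDerivAt F F' x₀) (hl : ∀ᶠ y in 𝓝 x₀, y ∈ Z ↔ F y = 0) (hs : Surjective F')
    [FiniteDimensional ℝ (F'.prod D.σ).ker] {n : ℕ}
    (hn : Module.finrank ℝ (F'.prod D.σ).ker = n) :
    ∃ e : OpenPartialHomeomorph (Mod G Z) (EuclideanSpace ℝ (Fin n)),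
      cls G ⟨x₀, h0⟩ ∈ e.source := by
  obtain ⟨e, he⟩ := D.chart_ker hZ h0 hF hl hs
  let A : (F'.prod D.σ).ker ≃L[ℝ] EuclideanSpace ℝ (Fin n) :=
    ContinuousLinearEquiv.ofFinrankEq (by simpa using hn)
  exact ⟨e.trans A.toHomeomorph.toOpenPartialHomeomorph, ⟨he, mem_univ _⟩⟩

/-- Regular point of index one. -/
theorem chart_one {Z : Set C} (hZ : Inv G Z) (h0 : x₀ ∈ Z) {F : C → E} {F' : C →L[ℝ] E}
    (hF : HasStrictFDerivAt F F' x₀) (hl : ∀ᶠ y in 𝓝 x₀, y ∈ Z ↔ F y = 0) (hs : Surjective F')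
    (hn : Module.finrank ℝ (F'.prod D.σ).ker = 1) :
    ∃ e : OpenPartialHomeomorph (Mod G Z) ℝ, cls G ⟨x₀, h0⟩ ∈ e.source := by
  have : FiniteDimensional ℝ (F'.prod D.σ).ker := Module.finite_of_finrank_pos (by omega)
  obtain ⟨e, he⟩ := D.chart_ker hZ h0 hF hl hs
  let A : (F'.prod D.σ).ker ≃L[ℝ] ℝ := ContinuousLinearEquiv.ofFinrankEq (by simpa using hn)
  exact ⟨e.trans A.toHomeomorph.toOpenPartialHomeomorph, ⟨he, mem_univ _⟩⟩

/-- A point with injective gauge-fixed linearisation is isolated in the moduli space (only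
`Z ⊆ {F = 0}` near `x₀` is used, and closed range). -/
theorem isolated {Z : Set C} (hZ : Inv G Z) (h0 : x₀ ∈ Z) {F : C → E} {F' : C →L[ℝ] E}
    (hF : HasStrictFDerivAt F F' x₀) (hl : ∀ᶠ y in 𝓝 x₀, y ∈ Z ↔ F y = 0) (hs : Surjective F')
    (hi : Injective (F'.prod D.σ)) :
    ∀ᶠ m in 𝓝 (cls G (⟨x₀, h0⟩ : Z)), m = cls G ⟨x₀, h0⟩ := by
  have hk : (F'.prod D.σ).ker = ⊥ := LinearMap.ker_eq_bot.2 hi
  have : Subsingleton (F'.prod D.σ).ker := by rw [hk]; infer_instance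
  obtain ⟨e, he⟩ := D.chart_ker hZ h0 hF hl hs
  filter_upwards [e.open_source.mem_nhds he] with m hm
  exact e.injOn hm he (Subsingleton.elim _ _)

/-- An invariant function whose level set is cut out regularly is a local coordinate of a
one-dimensional moduli space. -/
theorem tr_lift {Z : Set C} (hZ : Inv G Z) (h0 : x₀ ∈ Z) {F : C → E} {F' : C →L[ℝ] E}
    (hF : HasStrictFDerivAt F F' x₀) (hl : ∀ᶠ y in 𝓝 x₀, y ∈ Z ↔ F y = 0)
    {τ : C → ℝ} {τ' : C →L[ℝ] ℝ} (hτ : HasStrictFDerivAt τ τ' x₀)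
    (hi : ∀ (g : G), ∀ x ∈ Z, τ (g • x) = τ x) (hs : Surjective (F'.prod τ'))
    (hn : Module.finrank ℝ (F'.prod D.σ).ker = 1) :
    Par72.Tr (lift τ hi) (cls G ⟨x₀, h0⟩) := by
  have h1 : F'.comp D.d = 0 := D.comp_d_of_zero hF.hasFDerivAt hZ h0 hl
  have h2 : τ'.comp D.d = 0 :=
    D.comp_d_eq_zero hτ.hasFDerivAt (Eventually.of_forall fun ξ => hi _ _ h0)
  have h3 : (F'.prod τ').comp D.d = 0 := by
    ext ξ
    · simpa using congrArg (fun T : L →L[ℝ] E => T ξ) h1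
    · simpa using congrArg (fun T : L →L[ℝ] ℝ => T ξ) h2
  have h4 := (surj_prod_iff h3 D.bij.2).2 hs
  have hb : Bijective ((F'.prod D.σ).prod τ') := by
    refine Par72.bij_of_facet ?_ ?_ hn
    · intro h
      obtain ⟨v, hv⟩ := hs (0, 1)
      have : τ' v = 1 := congrArg Prod.snd hv
      simp [h] at this
    · rintro ⟨f, w⟩
      obtain ⟨v, hv⟩ := h4 ((f, 0), w)
      simp only [ContinuousLinearMap.prod_apply, Prod.mk.injEq] at hv ⊢
      exact ⟨v, hv.1.2, hv.1.1, hv.2⟩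
  obtain ⟨e, he, he'⟩ := D.chart_lift hZ h0 hF hl hτ hi hb
  exact ⟨e, he, by filter_upwards [e.open_source.mem_nhds he] with m hm using (he' m hm).symm⟩

end SliceData

/-- Regularity is transported along the action. -/
theorem surj_of_equivariant {a : C → C} {φ : C → E} {x : C} {φ₀ φ₁ : C →L[ℝ] E}
    {A : C →L[ℝ] C} {ρ : E →L[ℝ] E} (h0 : HasFDerivAt φ φ₀ x) (h1 : HasFDerivAt φ φ₁ (a x))
    (ha : HasFDerivAt a A x) (hA : Surjective A) (hρ : Injective ρ)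
    (he : ∀ᶠ y in 𝓝 x, φ (a y) = ρ (φ y)) (hs : Surjective φ₁) :
    Surjective φ₀ := by
  have h2 := h1.comp x ha
  have h3 : HasFDerivAt (φ ∘ a) (ρ.comp φ₀) x :=
    (ρ.hasFDerivAt.comp x h0).congr_of_eventuallyEq he
  have h4 := h2.unique h3
  intro y
  obtain ⟨v, hv⟩ := hs (ρ y)
  obtain ⟨w, rfl⟩ := hA v
  refine ⟨w, hρ ?_⟩
  rw [← hv]
  exact (congrArg (fun T : C →L[ℝ] E => T w) h4).symm

end Crest.Agent.X212.Slc61
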