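import Crest.Agent.X212.Slc61.Chart
import Crest.Agent.X212.Sard93.Smale

/-! Generic regularity modulo gauge (Sard–Smale through slices) and mod 2 counting. -/

set_option autoImplicit false
set_option linter.unusedSectionVars false

noncomputable section

open Set Filter Topology Function
open scoped ContDiff

namespace Crest.Agent.X212.Slc61

open Sard93 (dE)

section generic

variable {G : Type*} [Group G] {C : Type*} [NormedAddCommGroup C] [NormedSpace ℝ C]
  [CompleteSpace C] [MulAction G C]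
  {L H E P : Type*} [NormedAddCommGroup L] [NormedSpace ℝ L] [CompleteSpace L]
  [NormedAddCommGroup H] [NormedSpace ℝ H] [CompleteSpace H]
  [NormedAddCommGroup E] [NormedSpace ℝ E] [CompleteSpace E]
  [NormedAddCommGroup P] [NormedSpace ℝ P] [CompleteSpace P]

/-- Local form: one point `z` of the universal solution set `Zu`. -/
theorem generic_loc {U : Set (C × P)} (hU : IsOpen U) {F : C × P → E} (hF : ContDiffOn ℝ ∞ F U)
    {Zu : Set (C × P)} (hZU : Zu ⊆ U) (h0 : ∀ z ∈ Zu, F z = 0)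
    (hinv : ∀ (g : G) x p, (x, p) ∈ Zu → (g • x, p) ∈ Zu)
    (hreg : ∀ (g : G) x p, (x, p) ∈ Zu → Surjective (dE F (g • x, p)) → Surjective (dE F (x, p)))
    {z : C × P} (hz : z ∈ Zu) (D : SliceData G L H z.1) (hγ : ContDiff ℝ ∞ D.γ)
    (hFr : ((dE F z).prod D.σ).IsFredholm) (hS : Surjective (fderiv ℝ F z)) :
    ∃ N ∈ 𝓝 z, ∀ᶠ p in residual P, ∀ x, (x, p) ∈ N → (x, p) ∈ Zu → Surjective (dE F (x, p)) := by
  obtain ⟨x₀, p₀⟩ := z
  let Φ : C × P → E × H := fun w => (F w, D.γ w.1)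
  have hΦ : ContDiffOn ℝ ∞ Φ U := hF.prodMk (hγ.comp contDiff_fst).contDiffOn
  have hdF : ∀ w ∈ U, DifferentiableAt ℝ F w := fun w hw =>
    (hF.contDiffAt (hU.mem_nhds hw)).differentiableAt (by simp)
  have hdΦ : ∀ w ∈ U, fderiv ℝ Φ w =
      (fderiv ℝ F w).prod ((fderiv ℝ D.γ w.1).comp (ContinuousLinearMap.fst ℝ C P)) := fun w hw =>
    ((hdF w hw).hasFDerivAt.prodMk
      ((hγ.differentiable (by simp) w.1).hasFDerivAt.comp w hasFDerivAt_fst)).fderiv
  have hσ : fderiv ℝ D.γ x₀ = D.σ := D.gf.hasFDerivAt.fderiv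
  have hE : dE Φ (x₀, p₀) = (dE F (x₀, p₀)).prod D.σ := by
    ext v
    · simp [Sard93.dE_apply, hdΦ _ (hZU hz)]
    · simp [Sard93.dE_apply, hdΦ _ (hZU hz), hσ]
  have hd : (dE F (x₀, p₀)).comp D.d = 0 := by
    have h1 : HasFDerivAt (fun y => F (y, p₀)) (dE F (x₀, p₀)) x₀ :=
      (hdF _ (hZU hz)).hasFDerivAt.comp x₀ (hasFDerivAt_prodMk_left x₀ p₀)
    exact D.comp_d_eq_zero h1 (Eventually.of_forall fun ξ => by
      rw [h0 _ (hinv _ _ _ hz), h0 _ hz])
  have hS' : Surjective (fderiv ℝ Φ (x₀, p₀)) := by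
    rintro ⟨f, w⟩
    obtain ⟨⟨v, q⟩, rfl⟩ := hS f
    obtain ⟨ξ, hξ⟩ := D.bij.2 (w - D.σ v)
    refine ⟨(v, q) + (D.d ξ, 0), ?_⟩
    have h2 : fderiv ℝ F (x₀, p₀) (D.d ξ, 0) = 0 := by
      simpa [Sard93.dE_apply] using congrArg (fun T : L →L[ℝ] E => T ξ) hd
    simp only [ContinuousLinearMap.comp_apply] at hξ
    rw [hdΦ _ (hZU hz), ContinuousLinearMap.prod_apply, map_add, h2, add_zero]
    simp [hσ, hξ]
  obtain ⟨N, hN, hres⟩ := Sard93.param_loc hU hΦ (hZU hz)
    (show Φ (x₀, p₀) = 0 from Prod.ext (h0 _ hz) D.gf0) (hE ▸ hFr) hS'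
  obtain ⟨T⟩ := D.exists_tslice
  have hr : Tendsto (fun w : C × P => (T.r w.1, w.2)) (𝓝 (x₀, p₀)) (𝓝 (x₀, p₀)) := by
    have h1 : ContinuousAt T.r x₀ := T.cont.continuousAt (T.isOpen.mem_nhds T.mem)
    have h2 : T.r x₀ = x₀ := T.r_fix x₀ T.mem D.mem_S
    have h3 : ContinuousAt (fun w : C × P => (T.r w.1, w.2)) (x₀, p₀) :=
      (ContinuousAt.comp (f := Prod.fst) h1 continuousAt_fst).prodMk continuousAt_snd
    simpa [ContinuousAt, h2] using h3
  refine ⟨{w | w.1 ∈ T.V} ∩ (fun w : C × P => (T.r w.1, w.2)) ⁻¹' N,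
    inter_mem ((T.isOpen.preimage continuous_fst).mem_nhds T.mem) (hr hN), ?_⟩
  filter_upwards [hres] with p hp x hx hxZ
  obtain ⟨g, hg⟩ := T.r_orb x hx.1
  have hgZ := hinv g x p hxZ
  refine hreg g x p hxZ ?_
  have h4 := hp (g • x) (by rw [hg]; exact hx.2)
    (Prod.ext (h0 _ hgZ) (by rw [hg]; exact T.r_mem x hx.1))
  intro f
  obtain ⟨v, hv⟩ := h4 (f, 0)
  refine ⟨v, ?_⟩
  rw [Sard93.dE_apply, hdΦ _ (hZU hgZ)] at hv
  exact congrArg Prod.fst hv

/-- **Generic regularity modulo gauge.** `Zu` is any invariant set of zeros of `F` (the free part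
of the universal moduli space); at each of its points there is a slice, the gauge-fixed
linearisation is Fredholm and the full derivative is onto. Then for a residual set of parameters
every point of `Zu` is regular. -/
theorem generic [SecondCountableTopology C] [SecondCountableTopology P]
    {U : Set (C × P)} (hU : IsOpen U) {F : C × P → E} (hF : ContDiffOn ℝ ∞ F U)
    {Zu : Set (C × P)} (hZU : Zu ⊆ U) (h0 : ∀ z ∈ Zu, F z = 0)
    (hinv : ∀ (g : G) x p, (x, p) ∈ Zu → (g • x, p) ∈ Zu)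
    (hreg : ∀ (g : G) x p, (x, p) ∈ Zu → Surjective (dE F (g • x, p)) → Surjective (dE F (x, p)))
    (hpt : ∀ z ∈ Zu, ∃ D : SliceData G L H z.1, ContDiff ℝ ∞ D.γ ∧
      ((dE F z).prod D.σ).IsFredholm ∧ Surjective (fderiv ℝ F z)) :
    ∀ᶠ p in residual P, ∀ x, (x, p) ∈ Zu → Surjective (dE F (x, p)) := by
  have h : ∀ z ∈ Zu, ∃ N ∈ 𝓝 z, ∀ᶠ p in residual P, ∀ x, (x, p) ∈ N → (x, p) ∈ Zu →
      Surjective (dE F (x, p)) := fun z hz => by
    obtain ⟨D, h1, h2, h3⟩ := hpt z hz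
    exact generic_loc hU hF hZU h0 hinv hreg hz D h1 h2 h3
  choose! N hN hres using h
  obtain ⟨s, hc, hs, hcov⟩ := (HereditarilyLindelofSpace.isLindelof Zu).elim_nhds_subcover N hN
  have := (eventually_countable_ball hc).2 fun z hz => hres z (hs z hz)
  filter_upwards [this] with p hp x hx
  obtain ⟨z, hz, hxz⟩ := mem_iUnion₂.1 (hcov hx)
  exact hp z hz x hxz hx

/-- Version in which the point hypotheses are only known on ONE representative of each orbit
(for instance a smooth one). -/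
theorem generic' [SecondCountableTopology C] [SecondCountableTopology P]
    {U : Set (C × P)} (hU : IsOpen U) {F : C × P → E} (hF : ContDiffOn ℝ ∞ F U)
    [ContinuousConstSMul G C]
    {Zu : Set (C × P)} (hZU : Zu ⊆ U) (h0 : ∀ z ∈ Zu, F z = 0)
    (hinv : ∀ (g : G) x p, (x, p) ∈ Zu → (g • x, p) ∈ Zu)
    (hreg : ∀ (g : G) x p, (x, p) ∈ Zu → Surjective (dE F (g • x, p)) → Surjective (dE F (x, p)))
    (hpt : ∀ x p, (x, p) ∈ Zu → ∃ (g : G) (D : SliceData G L H (g • x)), ContDiff ℝ ∞ D.γ ∧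
      ((dE F (g • x, p)).prod D.σ).IsFredholm ∧ Surjective (fderiv ℝ F (g • x, p))) :
    ∀ᶠ p in residual P, ∀ x, (x, p) ∈ Zu → Surjective (dE F (x, p)) := by
  have h : ∀ z ∈ Zu, ∃ N ∈ 𝓝 z, ∀ᶠ p in residual P, ∀ x, (x, p) ∈ N → (x, p) ∈ Zu →
      Surjective (dE F (x, p)) := fun z hz => by
    obtain ⟨x₀, p₀⟩ := z
    obtain ⟨g, D, h1, h2, h3⟩ := hpt x₀ p₀ hz
    obtain ⟨N, hN, hres⟩ := generic_loc hU hF hZU h0 hinv hreg (z := (g • x₀, p₀))
      (hinv g _ _ hz) D h1 h2 h3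
    have hc : Continuous fun w : C × P => (g • w.1, w.2) :=
      ((continuous_const_smul g).comp continuous_fst).prodMk continuous_snd
    refine ⟨_, hc.continuousAt.preimage_mem_nhds (x := (x₀, p₀)) hN, ?_⟩
    filter_upwards [hres] with p hp x hx hxZ
    exact hreg g x p hxZ (hp _ hx (hinv g _ _ hxZ))
  choose! N hN hres using h
  obtain ⟨s, hc, hs, hcov⟩ := (HereditarilyLindelofSpace.isLindelof Zu).elim_nhds_subcover N hN
  have := (eventually_countable_ball hc).2 fun z hz => hres z (hs z hz)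
  filter_upwards [this] with p hp x hx
  obtain ⟨z, hz, hxz⟩ := mem_iUnion₂.1 (hcov hx)
  exact hp z hz x hxz hx

/-- At a regular point the index of the gauge-fixed operator is the dimension of its kernel; in
particular it is non-negative. -/
theorem index_eq_of_regular {x₀ : C} (D : SliceData G L H x₀) {F' : C →L[ℝ] E}
    (hd : F'.comp D.d = 0) (hs : Surjective F') :
    (F'.prod D.σ : C →ₗ[ℝ] E × H).index = Module.finrank ℝ (F'.prod D.σ).ker :=
  LinearMap.index_of_surjective ((surj_prod_iff hd D.bij.2).2 hs)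

end generic

section count

variable (G : Type*) [Group G] {C : Type*} [MulAction G C]

/-- The number of orbits in `Z`. -/
def cnt (Z : Set C) : ℕ := Nat.card (Mod G Z)

variable {G}

/-- Orbits of a subset, seen inside a bigger orbit space. -/
def modEquiv {Z Z' : Set C} (h : Z' ⊆ Z) :
    Mod G Z' ≃ ↥(cls G '' {x : Z | (x : C) ∈ Z'}) :=
  Equiv.ofBijective
    (Quotient.lift (s := orb G Z')
      (fun x => (⟨cls G ⟨x, h x.2⟩, ⟨x, h x.2⟩, x.2, rfl⟩ : ↥(cls G '' {x : Z | (x : C) ∈ Z'})))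
      (fun _ _ hxy => Subtype.ext (mk_eq_iff.2 hxy)))
    ⟨by
      intro a b
      obtain ⟨x, rfl⟩ := mk_surj a
      obtain ⟨y, rfl⟩ := mk_surj b
      intro hxy
      have h1 : cls G (⟨(x : C), h x.2⟩ : Z) = cls G (⟨(y : C), h y.2⟩ : Z) :=
        congrArg Subtype.val hxy
      obtain ⟨g, hg⟩ := mk_eq_iff.1 h1
      exact mk_eq_iff.2 ⟨g, hg⟩,
     by
      rintro ⟨_, x, hx, rfl⟩
      exact ⟨cls G ⟨x, hx⟩, rfl⟩⟩

theorem cnt_eq_ncard {Z Z' : Set C} (h : Z' ⊆ Z) :
    cnt G Z' = (cls G '' {x : Z | (x : C) ∈ Z'}).ncard := by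
  rw [cnt, Nat.card_congr (modEquiv h), Nat.card_coe_set_eq]

theorem finite_mod_iff {Z Z' : Set C} (h : Z' ⊆ Z) :
    Finite (Mod G Z') ↔ (cls G '' {x : Z | (x : C) ∈ Z'}).Finite := by
  rw [← Set.finite_coe_iff]
  exact (modEquiv h).finite_iff

theorem cnt_empty : cnt G (∅ : Set C) = 0 := by
  have : IsEmpty (Mod G (∅ : Set C)) := ⟨fun m => by
    obtain ⟨x, -⟩ := mk_surj m
    exact x.2⟩
  exact Nat.card_of_isEmpty

/-- Comparison of two moduli problems: a map that respects and reflects gauge equivalence and is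
onto up to gauge. -/
def congrEquiv {G' : Type*} [Group G'] {C' : Type*} [MulAction G' C'] {Z : Set C} {Z' : Set C'}
    (f : Z → Z') (h : ∀ x y : Z, (∃ g : G, g • (x : C) = y) ↔ ∃ g : G', g • (f x : C') = f y)
    (hs : ∀ y : Z', ∃ (x : Z) (g : G'), g • (f x : C') = y) : Mod G Z ≃ Mod G' Z' :=
  Equiv.ofBijective
    (Quotient.lift (s := orb G Z) (fun x => cls G' (f x)) fun x y hxy => mk_eq_iff.2 ((h x y).1 hxy))
    ⟨by
      intro a b
      obtain ⟨x, rfl⟩ := mk_surj a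
      obtain ⟨y, rfl⟩ := mk_surj b
      intro hxy
      exact mk_eq_iff.2 ((h x y).2 (mk_eq_iff.1 hxy)),
     by
      intro m
      obtain ⟨y, rfl⟩ := mk_surj m
      obtain ⟨x, g, hg⟩ := hs y
      exact ⟨cls G x, mk_eq_iff.2 ⟨g, hg⟩⟩⟩

theorem cnt_congr {G' : Type*} [Group G'] {C' : Type*} [MulAction G' C'] {Z : Set C}
    {Z' : Set C'} (f : Z → Z')
    (h : ∀ x y : Z, (∃ g : G, g • (x : C) = y) ↔ ∃ g : G', g • (f x : C') = f y)
    (hs : ∀ y : Z', ∃ (x : Z) (g : G'), g • (f x : C') = y) : cnt G Z = cnt G' Z' :=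
  Nat.card_congr (congrEquiv f h hs)

/-- Additivity over a disjoint union of invariant sets. -/
theorem cnt_union {A B : Set C} (hA : Inv G A) (hd : Disjoint A B)
    [Finite (Mod G A)] [Finite (Mod G B)] : cnt G (A ∪ B) = cnt G A + cnt G B := by
  have h1 := (finite_mod_iff (G := G) (subset_union_left (s := A) (t := B))).1 inferInstance
  have h2 := (finite_mod_iff (G := G) (subset_union_right (s := A) (t := B))).1 inferInstance
  rw [cnt_eq_ncard (subset_union_left (s := A) (t := B)),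
    cnt_eq_ncard (subset_union_right (s := A) (t := B)), cnt_eq_ncard (subset_refl (A ∪ B)),
    ← Set.ncard_union_eq ?_ h1 h2, ← image_union]
  · rfl
  · rw [Set.disjoint_left]
    rintro _ ⟨x, hx, rfl⟩ ⟨y, hy, hxy⟩
    obtain ⟨g, hg⟩ := mk_eq_iff.1 hxy.symm
    exact Set.disjoint_left.1 hd (hg ▸ hA g x hx) hy

end count

end Crest.Agent.X212.Slc61
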