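import Crest.Agent.X212.Slc61.Gen

/-! The three counting theorems modulo gauge: negative index is empty, index zero is finite,
index one gives the parity of the facets. -/

set_option autoImplicit false
set_option linter.unusedSectionVars false

noncomputable section

open Set Filter Topology Function

namespace Crest.Agent.X212.Slc61

variable {G : Type*} [Group G] {C : Type*} [NormedAddCommGroup C] [NormedSpace ℝ C]
  [CompleteSpace C] [MulAction G C]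
  (L H : Type*) {E : Type*} [NormedAddCommGroup L] [NormedSpace ℝ L] [CompleteSpace L]
  [NormedAddCommGroup H] [NormedSpace ℝ H] [CompleteSpace H]
  [NormedAddCommGroup E] [NormedSpace ℝ E] [CompleteSpace E]

/-- `x` is a regular point of index `n` of the moduli problem `Z = {F = 0}`. -/
def Reg (G : Type*) [Group G] [MulAction G C] (Z : Set C) (F : C → E) (n : ℤ) (x : C) : Prop :=
  ∃ (D : SliceData G L H x) (F' : C →L[ℝ] E), HasStrictFDerivAt F F' x ∧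
    (∀ᶠ y in 𝓝 x, y ∈ Z ↔ F y = 0) ∧ Surjective F' ∧
    FiniteDimensional ℝ (F'.prod D.σ).ker ∧ (F'.prod D.σ : C →ₗ[ℝ] E × H).index = n

/-- Sequential compactness of `Z` modulo gauge. -/
def SeqCpt (G : Type*) [Group G] [MulAction G C] (Z : Set C) : Prop :=
  ∀ x : ℕ → C, (∀ n, x n ∈ Z) → ∃ (φ : ℕ → ℕ) (g : ℕ → G) (a : C), StrictMono φ ∧
    a ∈ Z ∧ Tendsto (fun n => g n • x (φ n)) atTop (𝓝 a)

variable {L H}

theorem Reg.finrank {Z : Set C} (hZ : Inv G Z) {F : C → E} {n : ℤ} {x : C} (hx : x ∈ Z)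
    (h : Reg L H G Z F n x) : ∃ (D : SliceData G L H x) (F' : C →L[ℝ] E),
      HasStrictFDerivAt F F' x ∧ (∀ᶠ y in 𝓝 x, y ∈ Z ↔ F y = 0) ∧ Surjective F' ∧
      FiniteDimensional ℝ (F'.prod D.σ).ker ∧ (Module.finrank ℝ (F'.prod D.σ).ker : ℤ) = n := by
  obtain ⟨D, F', h1, h2, h3, h4, h5⟩ := h
  refine ⟨D, F', h1, h2, h3, h4, ?_⟩
  rw [← h5, index_eq_of_regular D (D.comp_d_of_zero h1.hasFDerivAt hZ hx h2) h3]

/-- Negative index: no regular point. -/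
theorem Reg.nonneg {Z : Set C} (hZ : Inv G Z) {F : C → E} {n : ℤ} {x : C} (hx : x ∈ Z)
    (h : Reg L H G Z F n x) : 0 ≤ n := by
  obtain ⟨D, F', -, -, -, -, h5⟩ := h.finrank hZ hx
  omega

variable [ContinuousConstSMul G C]

theorem Reg.chart {Z : Set C} (hZ : Inv G Z) {F : C → E} {n : ℕ} {x : C} (hx : x ∈ Z)
    (h : Reg L H G Z F n x) :
    ∃ e : OpenPartialHomeomorph (Mod G Z) (EuclideanSpace ℝ (Fin n)), cls G ⟨x, hx⟩ ∈ e.source := by
  obtain ⟨D, F', h1, h2, h3, h4, h5⟩ := h.finrank hZ hx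
  exact D.chart_fin hZ hx h1 h2 h3 (by exact_mod_cast h5)

theorem Reg.chart_one {Z : Set C} (hZ : Inv G Z) {F : C → E} {x : C} (hx : x ∈ Z)
    (h : Reg L H G Z F 1 x) :
    ∃ e : OpenPartialHomeomorph (Mod G Z) ℝ, cls G ⟨x, hx⟩ ∈ e.source := by
  obtain ⟨D, F', h1, h2, h3, h4, h5⟩ := h.finrank hZ hx
  exact D.chart_one hZ hx h1 h2 h3 (by exact_mod_cast h5)

theorem Reg.isolated {Z : Set C} (hZ : Inv G Z) {F : C → E} {x : C} (hx : x ∈ Z)
    (h : Reg L H G Z F 0 x) : ∀ᶠ m in 𝓝 (cls G (⟨x, hx⟩ : Z)), m = cls G ⟨x, hx⟩ := by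
  obtain ⟨D, F', h1, h2, h3, h4, h5⟩ := h.finrank hZ hx
  refine D.isolated hZ hx h1 h2 h3 (LinearMap.ker_eq_bot.1 ?_)
  exact Submodule.finrank_eq_zero.1 (by exact_mod_cast h5)

/-- An invariant function `τ` such that `(F, τ)` is a submersion is a coordinate. -/
theorem Reg.tr {Z : Set C} (hZ : Inv G Z) {F : C → E} {x : C} (hx : x ∈ Z)
    (h : Reg L H G Z F 1 x) {τ : C → ℝ} (hi : ∀ (g : G), ∀ x ∈ Z, τ (g • x) = τ x)
    {τ' : C →L[ℝ] ℝ} (hτ : HasStrictFDerivAt τ τ' x)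
    (hs : Surjective ((fderiv ℝ F x).prod τ')) : Par72.Tr (lift τ hi) (cls G ⟨x, hx⟩) := by
  obtain ⟨D, F', h1, h2, h3, h4, h5⟩ := h.finrank hZ hx
  rw [h1.hasFDerivAt.fderiv] at hs
  exact D.tr_lift hZ hx h1 h2 hτ hi hs (by exact_mod_cast h5)

theorem SeqCpt.isCompact [SecondCountableTopology C] {Z K : Set C} (hZ : Inv G Z)
    (h : SeqCpt G (Z ∩ K)) : IsCompact (cls G '' {x : Z | (x : C) ∈ K}) :=
  isCompact_of_seq hZ h

/-- **Index zero**: a compact regular moduli space is finite.  Regularity is only required on one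
representative of each orbit. -/
theorem finite_of_reg' {Z K : Set C} (hZ : Inv G Z) {F : C → E}
    (hc : IsCompact (cls G '' {x : Z | (x : C) ∈ K}))
    (hr : ∀ x ∈ Z, x ∈ K → ∃ g : G, Reg L H G Z F 0 (g • x)) : Finite (Mod G (Z ∩ K)) := by
  have := Par72.finite_of_isolated (S := univ) hc fun m hm => by
    obtain ⟨x, hx, rfl⟩ := hm
    obtain ⟨g, hg⟩ := hr x x.2 hx
    have h3 := hg.isolated hZ (hZ g x x.2)
    rw [mk_smul hZ] at h3
    exact ⟨_, h3.mono fun y hy _ => hy⟩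
  refine (finite_mod_iff inter_subset_left).2 (this.subset ?_)
  rintro _ ⟨x, hx, rfl⟩
  exact ⟨mem_univ _, x, hx.2, rfl⟩

theorem finite_of_reg [SecondCountableTopology C] {Z : Set C} (hZ : Inv G Z) {F : C → E}
    (hc : SeqCpt G Z) (hr : ∀ x ∈ Z, ∃ g : G, Reg L H G Z F 0 (g • x)) : Finite (Mod G Z) := by
  have := finite_of_reg' (K := univ) hZ (SeqCpt.isCompact hZ (by simpa using hc))
    fun x hx _ => hr x hx
  rwa [inter_univ] at this

/-- **Index one, facets.** `Z` an invariant solution set, `τ i` invariant functions; the part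
`{∀ i, 0 ≤ τ i}` is compact modulo gauge and regular of index one, no point lies on two facets and
the facets are cut out regularly. Then each facet has finitely many orbits and the total number is
even. -/
theorem even_facets' {Z : Set C} (hZ : Inv G Z) (hcl : ClosedOrb G Z) {F : C → E}
    {ι : Type*} [Fintype ι] (τ : ι → C → ℝ) (hi : ∀ i (g : G), ∀ x ∈ Z, τ i (g • x) = τ i x)
    (hτ : ∀ i, ContinuousOn (τ i) Z)
    (hc : IsCompact (cls G '' {x : Z | (x : C) ∈ {x | ∀ i, 0 ≤ τ i x}}))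
    (hr : ∀ x ∈ Z, (∀ i, 0 ≤ τ i x) → ∃ g : G, Reg L H G Z F 1 (g • x) ∧ ∀ i, τ i x = 0 →
      ∃ τ' : C →L[ℝ] ℝ, HasStrictFDerivAt (τ i) τ' (g • x) ∧
        Surjective ((fderiv ℝ F (g • x)).prod τ'))
    (hcor : ∀ x ∈ Z, (∀ i, 0 ≤ τ i x) → ∀ i j, τ i x = 0 → τ j x = 0 → i = j) :
    (∀ i, Finite (Mod G (Z ∩ {x | (∀ j, 0 ≤ τ j x) ∧ τ i x = 0}))) ∧
      Even (∑ i, cnt G (Z ∩ {x | (∀ j, 0 ≤ τ j x) ∧ τ i x = 0})) := by
  have := t2_mod hZ hcl
  let t : ι → Mod G Z → ℝ := fun i => lift (τ i) (hi i)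
  have hK : {m | ∀ i, 0 ≤ t i m} = cls G '' {x : Z | (x : C) ∈ {x | ∀ i, 0 ≤ τ i x}} := by
    ext m
    obtain ⟨x, rfl⟩ := mk_surj m
    refine ⟨fun h => ⟨x, h, rfl⟩, ?_⟩
    rintro ⟨y, hy, h⟩
    rw [← h]
    exact hy
  have hF : ∀ i, {m | (∀ j, 0 ≤ t j m) ∧ t i m = 0} =
      cls G '' {x : Z | (x : C) ∈ Z ∩ {x | (∀ j, 0 ≤ τ j x) ∧ τ i x = 0}} := fun i => by
    ext m
    obtain ⟨x, rfl⟩ := mk_surj m
    refine ⟨fun h => ⟨x, ⟨x.2, h⟩, rfl⟩, ?_⟩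
    rintro ⟨y, hy, h⟩
    rw [← h]
    exact hy.2
  have H := Par72.even_facets t (hK ▸ hc)
    (fun m _ i => (continuous_lift (hi i) (hτ i)).continuousAt)
    (fun m hm => by
      obtain ⟨x, rfl⟩ := mk_surj m
      obtain ⟨g, hg, -⟩ := hr x x.2 fun i => (hm i).le
      have h3 := hg.chart_one hZ (hZ g x x.2)
      rwa [mk_smul hZ] at h3)
    (fun m hm => by
      obtain ⟨x, rfl⟩ := mk_surj m
      exact hcor x x.2 hm)
    (fun m hm i h0 => by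
      obtain ⟨x, rfl⟩ := mk_surj m
      obtain ⟨g, hg, h2⟩ := hr x x.2 hm
      obtain ⟨τ', h3, h4⟩ := h2 i h0
      have h5 := hg.tr hZ (hZ g x x.2) (hi i) h3 h4
      rwa [mk_smul hZ] at h5)
  refine ⟨fun i => (finite_mod_iff inter_subset_left).2 (hF i ▸ H.1 i), ?_⟩
  convert H.2 using 2 with i
  rw [cnt_eq_ncard inter_subset_left, hF i]

theorem even_facets [SecondCountableTopology C] {Z : Set C} (hZ : Inv G Z) (hcl : ClosedOrb G Z)
    {F : C → E} {ι : Type*} [Fintype ι] (τ : ι → C → ℝ)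
    (hi : ∀ i (g : G), ∀ x ∈ Z, τ i (g • x) = τ i x)
    (hτ : ∀ i, ContinuousOn (τ i) Z) (hc : SeqCpt G (Z ∩ {x | ∀ i, 0 ≤ τ i x}))
    (hr : ∀ x ∈ Z, (∀ i, 0 ≤ τ i x) → ∃ g : G, Reg L H G Z F 1 (g • x) ∧ ∀ i, τ i x = 0 →
      ∃ τ' : C →L[ℝ] ℝ, HasStrictFDerivAt (τ i) τ' (g • x) ∧
        Surjective ((fderiv ℝ F (g • x)).prod τ'))
    (hcor : ∀ x ∈ Z, (∀ i, 0 ≤ τ i x) → ∀ i j, τ i x = 0 → τ j x = 0 → i = j) :
    (∀ i, Finite (Mod G (Z ∩ {x | (∀ j, 0 ≤ τ j x) ∧ τ i x = 0}))) ∧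
      Even (∑ i, cnt G (Z ∩ {x | (∀ j, 0 ≤ τ j x) ∧ τ i x = 0})) :=
  even_facets' hZ hcl τ hi hτ (SeqCpt.isCompact hZ hc) hr hcor

/-- **Cobordism invariance.** One invariant parameter `t ∈ [a, b]`. -/
theorem cnt_modEq [SecondCountableTopology C] {Z : Set C} (hZ : Inv G Z) (hcl : ClosedOrb G Z) {F : C → E}
    (t : C → ℝ) {a b : ℝ} (hab : a < b) (hi : ∀ (g : G), ∀ x ∈ Z, t (g • x) = t x)
    (ht : ContinuousOn t Z) (hc : SeqCpt G (Z ∩ t ⁻¹' Icc a b))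
    (hr : ∀ x ∈ Z, t x ∈ Icc a b → ∃ g : G, Reg L H G Z F 1 (g • x) ∧ (t x = a ∨ t x = b →
      ∃ τ' : C →L[ℝ] ℝ, HasStrictFDerivAt t τ' (g • x) ∧
        Surjective ((fderiv ℝ F (g • x)).prod τ'))) :
    Finite (Mod G (Z ∩ t ⁻¹' {a})) ∧ Finite (Mod G (Z ∩ t ⁻¹' {b})) ∧
      cnt G (Z ∩ t ⁻¹' {a}) ≡ cnt G (Z ∩ t ⁻¹' {b}) [MOD 2] := by
  have := t2_mod hZ hcl
  have hK : ∀ s : Set ℝ, (lift t hi : Mod G Z → ℝ) ⁻¹' s =
      cls G '' {x : Z | (x : C) ∈ Z ∩ t ⁻¹' s} := fun s => by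
    ext m
    obtain ⟨x, rfl⟩ := mk_surj m
    refine ⟨fun h => ⟨x, ⟨x.2, h⟩, rfl⟩, ?_⟩
    rintro ⟨y, hy, h⟩
    rw [← h]
    exact hy.2
  have H := Par72.fibre_modEq (lift t hi : Mod G Z → ℝ) hab
    (hK _ ▸ SeqCpt.isCompact hZ (by simpa [← inter_assoc] using hc))
    (fun m _ => (continuous_lift hi ht).continuousAt)
    (fun m hm => by
      obtain ⟨x, rfl⟩ := mk_surj m
      obtain ⟨g, hg, -⟩ := hr x x.2 (Ioo_subset_Icc_self hm)
      have h3 := hg.chart_one hZ (hZ g x x.2)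
      rwa [mk_smul hZ] at h3)
    (fun m hm => by
      obtain ⟨x, rfl⟩ := mk_surj m
      have hm' : t x = a ∨ t x = b := hm
      obtain ⟨g, hg, h2⟩ := hr x x.2 (by
        rcases hm' with h | h <;> rw [h]
        exacts [left_mem_Icc.2 hab.le, right_mem_Icc.2 hab.le])
      obtain ⟨τ', h3, h4⟩ := h2 hm'
      have h5 := hg.tr hZ (hZ g x x.2) hi h3 h4
      rwa [mk_smul hZ] at h5)
  refine ⟨(finite_mod_iff inter_subset_left).2 (hK _ ▸ H.1),
    (finite_mod_iff inter_subset_left).2 (hK _ ▸ H.2.1), ?_⟩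
  rw [cnt_eq_ncard inter_subset_left, cnt_eq_ncard inter_subset_left, ← hK, ← hK]
  exact H.2.2

end Crest.Agent.X212.Slc61
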