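import Crest.Agent.X212.Slc61.Par

/-! Saturations of sets of smooth solutions, and counting over a varying family of problems. -/

set_option autoImplicit false
set_option linter.unusedSectionVars false

noncomputable section

open Set Filter Topology Function

namespace Crest.Agent.X212.Slc61

section sat

variable (G : Type*) [Group G] {C : Type*} [MulAction G C]

/-- The union of the orbits through `S`. -/
def sat (S : Set C) : Set C := {y | ∃ g : G, g • y ∈ S}

variable {G}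

theorem inv_sat (S : Set C) : Inv G (sat G S) := by
  rintro g x ⟨k, hk⟩
  exact ⟨k * g⁻¹, by rwa [mul_smul, inv_smul_smul]⟩

theorem subset_sat (S : Set C) : S ⊆ sat G S := fun x hx => ⟨1, by rwa [one_smul]⟩

theorem sat_subset {S Z : Set C} (hZ : Inv G Z) (h : S ⊆ Z) : sat G S ⊆ Z := by
  rintro x ⟨g, hg⟩
  simpa using hZ g⁻¹ _ (h hg)

theorem sat_inter {S K : Set C} (hK : Inv G K) : sat G (S ∩ K) = sat G S ∩ K := by
  ext x
  constructor
  · rintro ⟨g, h1, h2⟩
    exact ⟨⟨g, h1⟩, by simpa using hK g⁻¹ _ h2⟩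
  · rintro ⟨⟨g, h1⟩, h2⟩
    exact ⟨g, h1, hK g _ h2⟩

theorem cnt_sat (S : Set C) : cnt G (sat G S) = cnt G S :=
  (cnt_congr (G' := G) (Z' := sat G S) (fun x : S => ⟨x, subset_sat S x.2⟩) (fun _ _ => Iff.rfl)
    fun y => by
      obtain ⟨g, hg⟩ := y.2
      exact ⟨⟨_, hg⟩, g⁻¹, inv_smul_smul _ _⟩).symm

/-- The orbit space as a quotient of an abstract type of solutions. -/
def quotEquiv {X : Type*} (s : Setoid X) {Z : Set C} (f : X → Z)
    (h : ∀ x y, s x y ↔ ∃ g : G, g • (f x : C) = f y)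
    (hs : ∀ y : Z, ∃ (x : X) (g : G), g • (f x : C) = y) : Quotient s ≃ Mod G Z :=
  Equiv.ofBijective (Quotient.lift (s := s) (fun x => cls G (f x))
      fun x y hxy => mk_eq_iff.2 ((h x y).1 hxy))
    ⟨by
      intro a b
      obtain ⟨x, rfl⟩ := Quotient.mk_surjective a
      obtain ⟨y, rfl⟩ := Quotient.mk_surjective b
      intro hxy
      exact Quotient.sound ((h x y).2 (mk_eq_iff.1 hxy)),
     by
      intro m
      obtain ⟨y, rfl⟩ := mk_surj m
      obtain ⟨x, g, hg⟩ := hs y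
      exact ⟨Quotient.mk s x, mk_eq_iff.2 ⟨g, hg⟩⟩⟩

end sat

section loc

variable {G : Type*} [Group G] {C : Type*} [NormedAddCommGroup C] [NormedSpace ℝ C]
  [CompleteSpace C] [MulAction G C]
  {L H E : Type*} [NormedAddCommGroup L] [NormedSpace ℝ L] [CompleteSpace L]
  [NormedAddCommGroup H] [NormedSpace ℝ H] [CompleteSpace H] [Zero E] {x₀ : C}

/-- If the zeros of `F` in the slice near `x₀` belong to `S` (elliptic regularity), then near `x₀`
the saturation of `S` is the zero set of `F`. -/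
theorem SliceData.eventually_sat (D : SliceData G L H x₀) {F : C → E} {S : Set C}
    (hS : ∀ x ∈ S, F x = 0) (hF : ∀ (g : G) y, F y = 0 → F (g • y) = 0)
    (hb : ∀ᶠ y in 𝓝 x₀, F y = 0 → D.γ y = 0 → y ∈ S) :
    ∀ᶠ y in 𝓝 x₀, y ∈ sat G S ↔ F y = 0 := by
  obtain ⟨T⟩ := D.exists_tslice
  have h1 : ContinuousAt T.r x₀ := T.cont.continuousAt (T.isOpen.mem_nhds T.mem)
  have h2 : Tendsto T.r (𝓝 x₀) (𝓝 x₀) := by
    simpa [ContinuousAt, T.r_fix x₀ T.mem D.mem_S] using h1
  filter_upwards [T.isOpen.mem_nhds T.mem, h2.eventually hb] with y hy h3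
  constructor
  · rintro ⟨g, hg⟩
    simpa using hF g⁻¹ _ (hS _ hg)
  · intro h0
    obtain ⟨g, hg⟩ := T.r_orb y hy
    exact ⟨g, hg ▸ h3 (hg ▸ hF g y h0) (T.r_mem y hy)⟩

/-- The same with an invariant domain of definition. -/
theorem SliceData.eventually_sat' (D : SliceData G L H x₀) {F : C → E} {S U : Set C}
    (hU : U ∈ 𝓝 x₀) (hS : ∀ x ∈ S, x ∈ U ∧ F x = 0)
    (hF : ∀ (g : G), ∀ y ∈ U, F y = 0 → F (g • y) = 0)
    (hb : ∀ᶠ y in 𝓝 x₀, F y = 0 → D.γ y = 0 → y ∈ S) :
    ∀ᶠ y in 𝓝 x₀, y ∈ sat G S ↔ F y = 0 := by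
  obtain ⟨T⟩ := D.exists_tslice
  have h1 : ContinuousAt T.r x₀ := T.cont.continuousAt (T.isOpen.mem_nhds T.mem)
  have h2 : Tendsto T.r (𝓝 x₀) (𝓝 x₀) := by
    simpa [ContinuousAt, T.r_fix x₀ T.mem D.mem_S] using h1
  filter_upwards [T.isOpen.mem_nhds T.mem, h2.eventually hb, hU] with y hy h3 hyU
  constructor
  · rintro ⟨g, hg⟩
    simpa using hF g⁻¹ _ (hS _ hg).1 (hS _ hg).2
  · intro h0
    obtain ⟨g, hg⟩ := T.r_orb y hy
    exact ⟨g, hg ▸ h3 (hg ▸ hF g y hyU h0) (T.r_mem y hy)⟩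

end loc

section seq

variable {G : Type*} [Group G] {C : Type*} [NormedAddCommGroup C] [NormedSpace ℝ C] [MulAction G C]

theorem SeqCpt.sat {S : Set C} (h : SeqCpt G S) : SeqCpt G (sat G S) := by
  intro x hx
  choose k hk using hx
  obtain ⟨φ, g, a, h1, h2, h3⟩ := h (fun n => k n • x n) hk
  exact ⟨φ, fun n => g n * k (φ n), a, h1, subset_sat S h2, by simpa only [mul_smul] using h3⟩

/-- Ultrafilter form of compactness modulo gauge. -/
theorem seqCpt_of_ultra {S : Set C}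
    (h : ∀ (x : ℕ → C) (𝒰 : Ultrafilter ℕ), (∀ n, x n ∈ S) → (𝒰 : Filter ℕ) ≤ atTop →
      ∃ (g : ℕ → G) (a : C), a ∈ S ∧ Tendsto (fun n => g n • x n) 𝒰 (𝓝 a)) : SeqCpt G S := by
  intro x hx
  obtain ⟨g, a, ha, hl⟩ := h x (Ultrafilter.of atTop) hx (Ultrafilter.of_le _)
  have hc : MapClusterPt a atTop fun n => g n • x n :=
    (hl.mapClusterPt).mono (Ultrafilter.of_le _)
  obtain ⟨φ, hφ, hl'⟩ := hc.tendsto_subseq
  exact ⟨φ, g ∘ φ, a, hφ, ha, hl'⟩

end seq

section groupoid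

/-- Counting isomorphism classes of solutions that live over varying objects.  `b x` is the
isomorphism class of the object under `x`; only finitely many classes occur. -/
theorem card_quot_eq_sum {X O : Type*} (s : Setoid X) (b : X → O) (hb : ∀ x y, s x y → b x = b y)
    (R : Finset O) (hR : ∀ x, b x ∈ R)
    (hf : ∀ o ∈ R, Finite (Quotient (s.comap (Subtype.val : {x // b x = o} → X)))) :
    Finite (Quotient s) ∧ Nat.card (Quotient s) =
      ∑ o ∈ R, Nat.card (Quotient (s.comap (Subtype.val : {x // b x = o} → X))) := by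
  let e : (Σ o : R, Quotient (s.comap (Subtype.val : {x // b x = o} → X))) ≃ Quotient s :=
    Equiv.ofBijective
      (fun q => Quotient.lift (s := s.comap Subtype.val) (fun x => Quotient.mk s x.1)
        (fun _ _ h => Quotient.sound h) q.2)
      ⟨by
        rintro ⟨⟨o, ho⟩, p⟩ ⟨⟨o', ho'⟩, q⟩
        obtain ⟨x, rfl⟩ := Quotient.mk_surjective p
        obtain ⟨y, rfl⟩ := Quotient.mk_surjective q
        intro h
        have h1 : s x.1 y.1 := Quotient.exact h
        have h2 : o = o' := x.2.symm.trans ((hb _ _ h1).trans y.2)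
        subst h2
        exact congrArg _ (Quotient.sound h1),
       by
        intro q
        obtain ⟨x, rfl⟩ := Quotient.mk_surjective q
        exact ⟨⟨⟨b x, hR x⟩, Quotient.mk _ ⟨x, rfl⟩⟩, rfl⟩⟩
  have : ∀ o : R, Finite (Quotient (s.comap (Subtype.val : {x // b x = o} → X))) :=
    fun o => hf o o.2
  refine ⟨Finite.of_equiv _ e, ?_⟩
  rw [← Nat.card_congr e, Nat.card_sigma, ← Finset.sum_coe_sort R]

end groupoid

end Crest.Agent.X212.Slc61
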