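import Mathlib

/-! Gauge quotients, topological part: the orbit space `Mod G Z` of an invariant subset `Z` of a
`G`-space, Hausdorff criterion, topological slices and the open embedding slice → orbit space. -/

set_option autoImplicit false

noncomputable section

open Set Filter Topology

namespace Crest.Agent.X212.Slc61

variable (G : Type*) [Group G] {C : Type*} [MulAction G C]

/-- `Z` is invariant under the action. -/
def Inv (Z : Set C) : Prop := ∀ g : G, ∀ x ∈ Z, g • x ∈ Z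

/-- The orbit relation on a subset. -/
def orb (Z : Set C) : Setoid Z where
  r x y := ∃ g : G, g • (x : C) = y
  iseqv :=
    ⟨fun x => ⟨1, one_smul _ _⟩,
     fun {x y} ⟨g, h⟩ => ⟨g⁻¹, by rw [← h, inv_smul_smul]⟩,
     fun {x y z} ⟨g, h⟩ ⟨k, h'⟩ => ⟨k * g, by rw [mul_smul, h, h']⟩⟩

/-- The orbit space of a subset (the moduli space when `Z` is the solution set). -/
def Mod (Z : Set C) : Type _ := Quotient (orb G Z)

instance [TopologicalSpace C] (Z : Set C) : TopologicalSpace (Mod G Z) :=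
  inferInstanceAs (TopologicalSpace (Quotient (orb G Z)))

/-- The class of a point. -/
def cls {Z : Set C} (x : Z) : Mod G Z := Quotient.mk (orb G Z) x

variable {G}

theorem mk_eq_iff {Z : Set C} {x y : Z} : cls G x = cls G y ↔ ∃ g : G, g • (x : C) = y :=
  Quotient.eq (r := orb G Z)

theorem mk_surj {Z : Set C} : Function.Surjective (cls G : Z → Mod G Z) :=
  Quotient.mk_surjective

theorem mk_smul {Z : Set C} (hZ : Inv G Z) (g : G) (x : Z) :
    cls G (⟨g • (x : C), hZ g x x.2⟩ : Z) = cls G x :=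
  (mk_eq_iff.2 ⟨g, rfl⟩).symm

/-- An invariant function descends to the orbit space. -/
def lift {Z : Set C} {α : Type*} (τ : C → α) (h : ∀ (g : G), ∀ x ∈ Z, τ (g • x) = τ x) :
    Mod G Z → α :=
  Quotient.lift (s := orb G Z) (fun x => τ x) (by
    rintro x y ⟨g, hg⟩
    show τ x = τ y
    rw [← hg, h g x x.2])

@[simp] theorem lift_mk {Z : Set C} {α : Type*} (τ : C → α)
    (h : ∀ (g : G), ∀ x ∈ Z, τ (g • x) = τ x) (x : Z) : lift τ h (cls G x) = τ x := rfl

variable [TopologicalSpace C]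

theorem isQuotientMap_mk {Z : Set C} : IsQuotientMap (cls G : Z → Mod G Z) :=
  isQuotientMap_quotient_mk'

theorem continuous_mk {Z : Set C} : Continuous (cls G : Z → Mod G Z) :=
  isQuotientMap_mk.continuous

theorem continuous_lift {Z : Set C} {α : Type*} [TopologicalSpace α] {τ : C → α}
    (h : ∀ (g : G), ∀ x ∈ Z, τ (g • x) = τ x) (hc : ContinuousOn τ Z) :
    Continuous (lift τ h : Mod G Z → α) :=
  isQuotientMap_mk.continuous_iff.2 hc.domRestrict

theorem isOpenMap_mk [ContinuousConstSMul G C] {Z : Set C} (hZ : Inv G Z) :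
    IsOpenMap (cls G : Z → Mod G Z) := by
  intro U hU
  rw [← isQuotientMap_mk.isOpen_preimage]
  have : (cls G : Z → Mod G Z) ⁻¹' (cls G '' U) =
      ⋃ g : G, (fun x : Z => (⟨g • (x : C), hZ g x x.2⟩ : Z)) ⁻¹' U := by
    ext x
    simp only [mem_preimage, mem_image, mem_iUnion]
    constructor
    · rintro ⟨y, hy, h⟩
      obtain ⟨g, hg⟩ := mk_eq_iff.1 h.symm
      exact ⟨g, by convert hy using 1; exact Subtype.ext hg⟩
    · rintro ⟨g, hg⟩
      exact ⟨_, hg, mk_smul hZ g x⟩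
  rw [this]
  exact isOpen_iUnion fun g =>
    hU.preimage (((continuous_const_smul g).comp continuous_subtype_val).subtype_mk _)

theorem isOpenQuotientMap_mk [ContinuousConstSMul G C] {Z : Set C} (hZ : Inv G Z) :
    IsOpenQuotientMap (cls G : Z → Mod G Z) :=
  ⟨mk_surj, continuous_mk, isOpenMap_mk hZ⟩

/-- The orbit relation is sequentially closed on `Z`. -/
def ClosedOrb (G : Type*) [Group G] {C : Type*} [MulAction G C] [TopologicalSpace C]
    (Z : Set C) : Prop :=
  ∀ (x : ℕ → C) (g : ℕ → G) (a b : C), (∀ n, x n ∈ Z) → a ∈ Z → b ∈ Z → Tendsto x atTop (𝓝 a) →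
    Tendsto (fun n => g n • x n) atTop (𝓝 b) → ∃ k : G, k • a = b

theorem ClosedOrb.mono {Z Z' : Set C} (h : ClosedOrb G Z) (hs : Z' ⊆ Z) : ClosedOrb G Z' :=
  fun x g a b hx ha hb => h x g a b (fun n => hs (hx n)) (hs ha) (hs hb)

theorem t2_mod [ContinuousConstSMul G C] [FirstCountableTopology C] {Z : Set C} (hZ : Inv G Z)
    (hc : ClosedOrb G Z) : T2Space (Mod G Z) := by
  rw [t2Space_iff_of_isOpenQuotientMap (isOpenQuotientMap_mk hZ)]
  apply IsSeqClosed.isClosed
  intro u p hu hp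
  choose g hg using fun n => mk_eq_iff.1 (hu n)
  have h1 : Tendsto (fun n => ((u n).1 : C)) atTop (𝓝 (p.1 : C)) :=
    ((continuous_subtype_val.comp continuous_fst).tendsto p).comp hp
  have h2 : Tendsto (fun n => ((u n).2 : C)) atTop (𝓝 (p.2 : C)) :=
    ((continuous_subtype_val.comp continuous_snd).tendsto p).comp hp
  refine mk_eq_iff.2 (hc (fun n => (u n).1) g _ _ (fun n => (u n).1.2) p.1.2 p.2.2 h1 ?_)
  simpa only [hg] using h2

/-- Sequential compactness modulo gauge gives compactness in the orbit space. -/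
theorem isCompact_of_seq [ContinuousConstSMul G C] [SecondCountableTopology C] {Z : Set C}
    (hZ : Inv G Z) {K : Set C}
    (h : ∀ x : ℕ → C, (∀ n, x n ∈ Z ∩ K) → ∃ (φ : ℕ → ℕ) (g : ℕ → G) (a : C), StrictMono φ ∧
      a ∈ Z ∩ K ∧ Tendsto (fun n => g n • x (φ n)) atTop (𝓝 a)) :
    IsCompact (cls G '' {x : Z | (x : C) ∈ K}) := by
  have : SecondCountableTopology (Mod G Z) :=
    (isQuotientMap_mk (G := G) (Z := Z)).secondCountableTopology (isOpenMap_mk hZ)
  refine IsCountablyCompact.isCompact (IsSeqCompact.isCountablyCompact ?_)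
  intro u hu
  choose x hxK hx using hu
  obtain ⟨φ, g, a, hφ, ha, hl⟩ := h (fun n => x n) (fun n => ⟨(x n).2, hxK n⟩)
  refine ⟨cls G ⟨a, ha.1⟩, ⟨⟨a, ha.1⟩, ha.2, rfl⟩, φ, hφ, ?_⟩
  have : Tendsto (fun n => (⟨g n • (x (φ n) : C), hZ _ _ (x (φ n)).2⟩ : Z)) atTop
      (𝓝 ⟨a, ha.1⟩) := tendsto_subtype_rng.2 hl
  have h2 := (continuous_mk (G := G).tendsto _).comp this
  refine h2.congr fun n => ?_
  simp only [Function.comp]
  rw [mk_smul hZ, hx]

/-- A topological slice at `x₀`: an open neighbourhood `V`, a set `S`, and a continuous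
retraction along orbits `r : V → S`; orbits meet `S ∩ V` at most once. -/
structure TSlice (G : Type*) [Group G] {C : Type*} [MulAction G C] [TopologicalSpace C]
    (S : Set C) (x₀ : C) where
  V : Set C
  r : C → C
  isOpen : IsOpen V
  mem : x₀ ∈ V
  cont : ContinuousOn r V
  r_mem : ∀ x ∈ V, r x ∈ S
  r_orb : ∀ x ∈ V, ∃ g : G, g • x = r x
  r_fix : ∀ x ∈ V, x ∈ S → r x = x
  inj : ∀ x ∈ V, x ∈ S → ∀ g : G, g • x ∈ V → g • x ∈ S → g • x = x

/-- Shrinking the neighbourhood of a slice. -/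
def TSlice.restr {S : Set C} {x₀ : C} (T : TSlice G S x₀) {W : Set C} (hW : IsOpen W)
    (h : x₀ ∈ W) : TSlice G S x₀ where
  V := T.V ∩ W
  r := T.r
  isOpen := T.isOpen.inter hW
  mem := ⟨T.mem, h⟩
  cont := T.cont.mono inter_subset_left
  r_mem x hx := T.r_mem x hx.1
  r_orb x hx := T.r_orb x hx.1
  r_fix x hx := T.r_fix x hx.1
  inj x hx hs g hg := T.inj x hx.1 hs g hg.1

/-- The slice embeds openly into the orbit space. -/
theorem TSlice.isOpenEmbedding [ContinuousConstSMul G C] {S : Set C} {x₀ : C}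
    (T : TSlice G S x₀) {Z : Set C} (hZ : Inv G Z) :
    IsOpenEmbedding (fun x : ↥(Z ∩ (S ∩ T.V)) => cls G (⟨x, x.2.1⟩ : Z)) := by
  refine IsOpenEmbedding.of_continuous_injective_isOpenMap
    (continuous_mk.comp (continuous_subtype_val.subtype_mk _)) ?_ ?_
  · intro x y h
    obtain ⟨g, hg⟩ := mk_eq_iff.1 h
    have hg' : g • (x : C) = y := hg
    apply Subtype.ext
    rw [← hg']
    exact (T.inj x x.2.2.2 x.2.2.1 g (hg' ▸ y.2.2.2) (hg' ▸ y.2.2.1)).symm
  · intro O hO
    obtain ⟨O', hO', rfl⟩ := isOpen_induced_iff.1 hO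
    have hN : IsOpen (T.V ∩ T.r ⁻¹' (O' ∩ T.V)) :=
      T.cont.isOpen_inter_preimage T.isOpen (hO'.inter T.isOpen)
    have := isOpenMap_mk hZ _ (hN.preimage (continuous_subtype_val (p := (· ∈ Z))))
    convert this using 1
    ext m
    simp only [mem_image, mem_preimage, mem_inter_iff]
    constructor
    · rintro ⟨x, hx, rfl⟩
      refine ⟨⟨x, x.2.1⟩, ⟨x.2.2.2, ?_⟩, rfl⟩
      rw [T.r_fix x x.2.2.2 x.2.2.1]
      exact ⟨hx, x.2.2.2⟩
    · rintro ⟨y, ⟨hyV, hO1, hV1⟩, rfl⟩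
      obtain ⟨g, hg⟩ := T.r_orb y hyV
      refine ⟨⟨T.r y, hg ▸ hZ g y y.2, T.r_mem y hyV, hV1⟩, hO1, ?_⟩
      exact (mk_eq_iff.2 ⟨g, hg⟩).symm

end Crest.Agent.X212.Slc61
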